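import Vale.Agent.P331.H489.Ex

/-!
# One target: definitions

`D` is an up-set of finite sets (the sets which span the target).  Labels: `v` test set, `s` sample
(outer noise), `i` frozen sample (inner noise), `o` others.
-/

set_option autoImplicit false
set_option linter.unusedSectionVars false
set_option linter.unusedVariables false

namespace Vale.Agent.P331.H316

open Finset Vale.Agent.P331.H489
open scoped Classical

/-- indicator -/
noncomputable def ind (P : Prop) : ℝ := if P then 1 else 0

/-- weights of a coin -/
noncomputable def tw (τ : ℝ) (b : Bool) : ℝ := if b = true then τ else 1 - τ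

/-- labels -/
inductive L4 | v | s | i | o
  deriving DecidableEq

instance : Fintype L4 := ⟨{.v, .s, .i, .o}, by intro x; cases x <;> decide⟩

theorem sum_L4 (f : L4 → ℝ) : ∑ l, f l = f .v + f .s + f .i + f .o := by
  have h : (univ : Finset L4) = {.v, .s, .i, .o} := rfl
  rw [h, sum_insert (by decide), sum_insert (by decide), sum_insert (by decide), sum_singleton]
  ring

/-- weights of the labels -/
noncomputable def w4 (p x s : ℝ) : L4 → ℝ
  | .v => p
  | .s => x
  | .i => s
  | .o => 1 - p - x - s

section

variable {E : Type} [Fintype E]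

/-- the elements with label `l` -/
noncomputable def cls {L : Type} (κ : E → L) (l : L) : Finset E := univ.filter fun e => κ e = l

/-- the expectation of `F` over a random subset of `S`, every element is kept with
probability `τ` -/
noncomputable def thin (τ : ℝ) (S : Finset E) (F : Finset E → ℝ) : ℝ :=
  EX (fun _ : E => tw τ) fun c : E → Bool => F (S.filter fun e => c e = true)

/-- up-sets -/
def Up (D : Finset E → Prop) : Prop := ∀ A B, A ⊆ B → D A → D B

variable (D : Finset E → Prop)

/-- inner failure probability -/
noncomputable def psi (t : ℝ) (I U : Finset E) : ℝ := thin t I fun N => ind (¬ D (U ∪ N))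

/-- `b` is pivotal at `U` -/
def Piv (b : E) (U : Finset E) : Prop := D (insert b U) ∧ ¬ D (U.erase b)

/-- inner probability that `b` is pivotal -/
noncomputable def ppiv (t : ℝ) (I : Finset E) (b : E) (U : Finset E) : ℝ :=
  thin t I fun N => ind (Piv D b (U ∪ N))

/-- outer failure probability: the inner one exceeds `e` -/
noncomputable def fl (n t e : ℝ) (R I U : Finset E) : ℝ :=
  thin n R fun N => ind (e < psi D t I (U ∪ N))

/-- a small subset of `A` works together with the pool `G` -/
def bb (n t e lam : ℝ) (kap : ℕ) (R I A G : Finset E) : Prop :=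
  ∃ Y ⊆ A, Y.card ≤ kap ∧ fl D n t e (R \ G) I (Y ∪ G) ≤ lam

/-- ... for most pools `G` -/
def BB (g n t e lam zet : ℝ) (kap : ℕ) (R I A : Finset E) : Prop :=
  1 - zet ≤ thin g R fun G => ind (bb D n t e lam kap R I A G)

/-- `b` is relevant at `W` in some small context inside `X` -/
def rel (t dl : ℝ) (kap : ℕ) (I X : Finset E) (b : E) (W : Finset E) : Prop :=
  ∃ U ⊆ X.erase b, U.card ≤ kap ∧ dl ≤ ppiv D t I b (U ∪ W)

/-- the probability that `b` is relevant in a small context inside `X` -/
noncomputable def rho (g n t dl : ℝ) (kap : ℕ) (R I X : Finset E) (b : E) : ℝ :=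
  thin g R fun G => thin n (R \ G) fun N => ind (rel D t dl kap I X b (G ∪ N))

/-- the parameters -/
structure Par where
  /-- probability of the pool inside the sample -/
  g : ℝ
  /-- probability of the outer noise inside the rest of the sample -/
  n : ℝ
  /-- probability of the inner noise -/
  t : ℝ
  kap : ℕ → ℕ
  eps : ℕ → ℝ
  dl : ℕ → ℝ
  eta : ℕ → ℝ
  lam : ℕ → ℝ
  zet : ℕ → ℝ

variable (P : Par) (R I : Finset E)

/-- level `j` condition -/
def BBj (j : ℕ) (A : Finset E) : Prop :=
  BB D P.g P.n P.t (P.eps j) (P.lam j) (P.zet j) (P.kap j) R I A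

/-- `b` is declared at level `j` in the context `X` -/
def sig (j : ℕ) (X : Finset E) (b : E) : Prop :=
  P.eta j ≤ rho D P.g P.n P.t (P.dl j) (P.kap j) R I X b

/-- the largest subset of `X` all of whose elements are declared in the context of this subset -/
noncomputable def core (j : ℕ) (X : Finset E) : Finset E :=
  (X.powerset.filter fun Q => ∀ b ∈ Q, sig D P R I j Q b).sup id

/-- the step from level `j + 1` to level `j` fails -/
def Bad (j : ℕ) (X : Finset E) : Prop := BBj D P R I (j + 1) X ∧ ¬ BBj D P R I j (core D P R I j X)

/-- `b` is blamed at the step from level `j + 1` to level `j` -/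
def Ev (j : ℕ) (b : E) (V : Finset E) : Prop :=
  ∃ X ⊆ V, b ∈ X ∧ core D P R I (j + 1) X = X ∧ Bad D P R I j X

/-- the natural influence -/
noncomputable def Jn (Θ : ℝ) (b : E) : ℝ := thin Θ univ fun U => ind (Piv D b U)

/-- the probability of an event which depends on the three classes of labels -/
noncomputable def PR (p x s : ℝ) (F : Finset E → Finset E → Finset E → ℝ) : ℝ :=
  EX (fun _ : E => w4 p x s) fun κ => F (cls κ .v) (cls κ .s) (cls κ .i)

end

end Vale.Agent.P331.H316
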